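/-
P235, line HUB (helper465): [SUP].
-/
import Vale.Agent.P235.Hub.Defs

namespace Vale.Agent.P235.Hub.H465

open Vale.Agent.P235 Vale.Agent.P235.R2.H598 Vale.Agent.P235.Hub

/-- the supremum of the differences of the functions bounded by `lam` on `R` -/
noncomputable def supD {V : Type} (R : V → V → Prop) (lam : V → V → ℝ) (x y : V) : ℝ :=
  sSup {r | ∃ f : V → ℝ, (∀ u v, R u v → |f u - f v| ≤ lam u v) ∧ r = |f x - f y|}

theorem isMet_nonneg {V : Type} {d : V → V → ℝ} (hd : IsMet d) (x y : V) : 0 ≤ d x y := by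
  by_cases h : x = y
  · rw [h, hd.self]
  · exact (hd.pos x y h).le

theorem isMet_abs {V : Type} {d : V → V → ℝ} (hd : IsMet d) (a x y : V) :
    |d a x - d a y| ≤ d x y := by
  have h1 := hd.tri a x y
  have h2 := hd.tri a y x
  rw [hd.symm y x] at h2
  rw [abs_le]
  constructor <;> linarith

/-- **[SUP]** -/
theorem sup : SupStmt := by
  intro V G d hd hG θ hθ R lam hR hlow hup
  have h0 : ∀ u v, R u v → 0 ≤ lam u v := fun u v h =>
    (mul_nonneg hθ.le (isMet_nonneg hd u v)).trans (hlow u v h)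
  have hne : ∀ x y, {r | ∃ f : V → ℝ, (∀ u v, R u v → |f u - f v| ≤ lam u v) ∧
      r = |f x - f y|}.Nonempty := fun x y =>
    ⟨_, fun _ => 0, fun u v h => by simpa using h0 u v h, rfl⟩
  have hb : ∀ x y, ∀ r ∈ {r | ∃ f : V → ℝ, (∀ u v, R u v → |f u - f v| ≤ lam u v) ∧
      r = |f x - f y|}, r ≤ d x y := by
    rintro x y _ ⟨f, hf, rfl⟩
    exact hG f (fun u v h => (hf u v (hR u v h)).trans (hup u v h)) x y
  have hbdd : ∀ x y, BddAbove {r | ∃ f : V → ℝ, (∀ u v, R u v → |f u - f v| ≤ lam u v) ∧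
      r = |f x - f y|} := fun x y => ⟨d x y, hb x y⟩
  have hle : ∀ f : V → ℝ, (∀ u v, R u v → |f u - f v| ≤ lam u v) → ∀ x y,
      |f x - f y| ≤ supD R lam x y := fun f hf x y => le_csSup (hbdd x y) ⟨f, hf, rfl⟩
  have hD : ∀ x y, supD R lam x y ≤ d x y := fun x y => csSup_le (hne x y) (hb x y)
  have hlow' : ∀ x y, θ * d x y ≤ supD R lam x y := by
    intro x y
    have h := hle (fun z => θ * d x z) (fun u v h => by
      have h1 : θ * d x u - θ * d x v = θ * (d x u - d x v) := by ring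
      rw [h1, abs_mul, abs_of_pos hθ]
      exact (mul_le_mul_of_nonneg_left (isMet_abs hd x u v) hθ.le).trans (hlow u v h)) x y
    simp only [hd.self, mul_zero, zero_sub, abs_neg] at h
    rwa [abs_of_nonneg (mul_nonneg hθ.le (isMet_nonneg hd x y))] at h
  refine ⟨supD R lam, ⟨?_, ?_, ?_, ?_⟩, hlow', hD, ?_, hle⟩
  · intro x
    have h1 := hD x x
    have h2 := hlow' x x
    rw [hd.self] at h1 h2
    rw [mul_zero] at h2
    exact le_antisymm h1 h2
  · intro x y hxy
    exact (mul_pos hθ (hd.pos x y hxy)).trans_le (hlow' x y)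
  · intro x y
    unfold supD
    congr 1
    ext r
    constructor
    · rintro ⟨f, hf, rfl⟩
      exact ⟨f, hf, abs_sub_comm _ _⟩
    · rintro ⟨f, hf, rfl⟩
      exact ⟨f, hf, abs_sub_comm _ _⟩
  · intro x y z
    refine csSup_le (hne x z) ?_
    rintro _ ⟨f, hf, rfl⟩
    have h1 := hle f hf x y
    have h2 := hle f hf y z
    exact (abs_sub_le (f x) (f y) (f z)).trans (add_le_add h1 h2)
  · intro u v h
    refine csSup_le (hne u v) ?_
    rintro _ ⟨f, hf, rfl⟩
    exact hf u v h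

end Vale.Agent.P235.Hub.H465
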