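/-
P235, line HUB (helper465): [AMALG].
-/
import Vale.Agent.P235.Hub.H465.Sup

namespace Vale.Agent.P235.Hub.H465

open Vale.Agent.P235 Vale.Agent.P235.R2.H598 Vale.Agent.P235.Hub

/-- extension of a function over the second part -/
theorem ext_fun {V : Type} {A B : Set V} {s t : V} (hAB : A ∪ B = Set.univ)
    (hI : A ∩ B = {s, t}) (hsA : s ∈ A) (htA : t ∈ A) (hsB : s ∈ B) (htB : t ∈ B)
    {DA : A → A → ℝ} {DB : B → B → ℝ} (mB : IsMet DB)
    (hst : DA ⟨s, hsA⟩ ⟨t, htA⟩ = DB ⟨s, hsB⟩ ⟨t, htB⟩) (g : A → ℝ)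
    (hg : ∀ x y, |g x - g y| ≤ DA x y) :
    ∃ f : V → ℝ, (∀ x : A, f x = g x) ∧ ∀ x y : B, |f x - f y| ≤ DB x y := by
  classical
  have hB : ∀ z, z ∉ A → z ∈ B := by
    intro z hz
    have : z ∈ A ∪ B := by rw [hAB]; trivial
    exact this.resolve_left hz
  obtain ⟨m, hm⟩ : ∃ m : B → ℝ, ∀ z, m z =
      min (g ⟨s, hsA⟩ + DB ⟨s, hsB⟩ z) (g ⟨t, htA⟩ + DB ⟨t, htB⟩ z) := ⟨_, fun _ => rfl⟩
  obtain ⟨f, hf⟩ : ∃ f : V → ℝ, ∀ z, f z = if h : z ∈ A then g ⟨z, h⟩ else m ⟨z, hB z h⟩ :=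
    ⟨_, fun _ => rfl⟩
  have hfA : ∀ x : A, f x = g x := fun x => by rw [hf, dif_pos x.2]
  have h1 := hg ⟨s, hsA⟩ ⟨t, htA⟩
  rw [hst, abs_le] at h1
  have hfB : ∀ x : B, f x = m x := by
    rintro ⟨x, hx⟩
    by_cases h : x ∈ A
    · have h2 : x ∈ A ∩ B := ⟨h, hx⟩
      rw [hI] at h2
      rcases h2 with h2 | h2
      · subst h2
        rw [hf, dif_pos h, hm, mB.self, add_zero, min_eq_left]
        rw [mB.symm]
        linarith [h1.1, h1.2]
      · have h3 : x = t := h2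
        subst h3
        rw [hf, dif_pos h, hm, mB.self, add_zero, min_eq_right]
        linarith [h1.1, h1.2]
    · rw [hf, dif_neg h]
  refine ⟨f, hfA, fun x y => ?_⟩
  rw [hfB, hfB, hm, hm]
  refine (abs_min_sub_min_le_max _ _ _ _).trans (max_le ?_ ?_)
  · rw [add_sub_add_left_eq_sub]
    exact isMet_abs mB _ _ _
  · rw [add_sub_add_left_eq_sub]
    exact isMet_abs mB _ _ _

/-- **[AMALG]** -/
theorem amalg_of (hS : SupStmt) : AmalgStmt := by
  classical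
  intro V G d hd hG A B s t hAB hI hno θ hθ hsA htA hsB htB DA DB mA mB gA gB lA uA lB uB hst
  have hmem : ∀ u, u ∈ A ∨ u ∈ B := by
    intro u
    have : u ∈ A ∪ B := by rw [hAB]; trivial
    exact this
  obtain ⟨lam, hlam⟩ : ∃ lam : V → V → ℝ, ∀ u v, lam u v =
      if h : u ∈ A ∧ v ∈ A then DA ⟨u, h.1⟩ ⟨v, h.2⟩ else
        if h : u ∈ B ∧ v ∈ B then DB ⟨u, h.1⟩ ⟨v, h.2⟩ else 0 := ⟨_, fun _ _ => rfl⟩
  have hlA : ∀ x y : A, lam x y = DA x y := fun x y => by rw [hlam, dif_pos ⟨x.2, y.2⟩]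
  have hlB : ∀ x y : B, lam x y = DB x y := by
    rintro ⟨x, hx⟩ ⟨y, hy⟩
    by_cases h : x ∈ A ∧ y ∈ A
    · have h2 : x ∈ A ∩ B := ⟨h.1, hx⟩
      have h3 : y ∈ A ∩ B := ⟨h.2, hy⟩
      rw [hlam, dif_pos h]
      rw [hI] at h2 h3
      rcases h2 with h2 | h2 <;> rcases h3 with h3 | h3
      · have e1 : x = s := h2
        have e2 : y = s := h3
        subst e1; subst e2
        rw [mA.self, mB.self]
      · have e1 : x = s := h2
        have e2 : y = t := h3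
        subst e1; subst e2
        exact hst
      · have e1 : x = t := h2
        have e2 : y = s := h3
        subst e1; subst e2
        rw [mA.symm, mB.symm]
        exact hst
      · have e1 : x = t := h2
        have e2 : y = t := h3
        subst e1; subst e2
        rw [mA.self, mB.self]
    · rw [hlam, dif_neg h, dif_pos ⟨hx, hy⟩]
  have hedge : ∀ u v, G.Adj u v → (u ∈ A ∧ v ∈ A) ∨ (u ∈ B ∧ v ∈ B) := by
    intro u v huv
    by_cases hu : u ∈ A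
    · by_cases hv : v ∈ A
      · exact Or.inl ⟨hu, hv⟩
      · have hvB := (hmem v).resolve_left hv
        by_cases huB : u ∈ B
        · exact Or.inr ⟨huB, hvB⟩
        · exact absurd huv (hno u v huB hv)
    · have huB := (hmem u).resolve_left hu
      by_cases hvB : v ∈ B
      · exact Or.inr ⟨huB, hvB⟩
      · exact absurd huv.symm (hno v u hvB hu)
  obtain ⟨D, hD, h1, h2, h3, h4⟩ := hS V G d hd hG θ hθ
    (fun u v => (u ∈ A ∧ v ∈ A) ∨ (u ∈ B ∧ v ∈ B)) lam hedge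
    (by
      rintro u v (⟨hu, hv⟩ | ⟨hu, hv⟩)
      · rw [hlA ⟨u, hu⟩ ⟨v, hv⟩]
        exact lA ⟨u, hu⟩ ⟨v, hv⟩
      · rw [hlB ⟨u, hu⟩ ⟨v, hv⟩]
        exact lB ⟨u, hu⟩ ⟨v, hv⟩)
    (by
      intro u v huv
      rcases hedge u v huv with ⟨hu, hv⟩ | ⟨hu, hv⟩
      · rw [hlA ⟨u, hu⟩ ⟨v, hv⟩]
        exact uA ⟨u, hu⟩ ⟨v, hv⟩
      · rw [hlB ⟨u, hu⟩ ⟨v, hv⟩]
        exact uB ⟨u, hu⟩ ⟨v, hv⟩)
  -- admissible functions
  have key : ∀ f : V → ℝ, (∀ x y : A, |f x - f y| ≤ DA x y) →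
      (∀ x y : B, |f x - f y| ≤ DB x y) → ∀ x y, |f x - f y| ≤ D x y := by
    intro f hfA hfB
    refine h4 f ?_
    rintro u v (⟨hu, hv⟩ | ⟨hu, hv⟩)
    · rw [hlA ⟨u, hu⟩ ⟨v, hv⟩]
      exact hfA ⟨u, hu⟩ ⟨v, hv⟩
    · rw [hlB ⟨u, hu⟩ ⟨v, hv⟩]
      exact hfB ⟨u, hu⟩ ⟨v, hv⟩
  have hDA : ∀ x y : A, D x y = DA x y := by
    intro x y
    refine le_antisymm ?_ ?_
    · have := h3 x y (Or.inl ⟨x.2, y.2⟩)
      rwa [hlA] at this
    · obtain ⟨f, hf1, hf2⟩ := ext_fun hAB hI hsA htA hsB htB mB hst (fun z => DA x z)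
        (fun a b => isMet_abs mA x a b)
      have h5 := key f (fun a b => by rw [hf1, hf1]; exact isMet_abs mA x a b) hf2 x y
      rw [hf1, hf1, mA.self, zero_sub, abs_neg, abs_of_nonneg (isMet_nonneg mA x y)] at h5
      exact h5
  have hDB : ∀ x y : B, D x y = DB x y := by
    intro x y
    refine le_antisymm ?_ ?_
    · have := h3 x y (Or.inr ⟨x.2, y.2⟩)
      rwa [hlB] at this
    · obtain ⟨f, hf1, hf2⟩ := ext_fun (by rw [Set.union_comm]; exact hAB)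
        (by rw [Set.inter_comm]; exact hI) hsB htB hsA htA mA hst.symm (fun z => DB x z)
        (fun a b => isMet_abs mB x a b)
      have h5 := key f hf2 (fun a b => by rw [hf1, hf1]; exact isMet_abs mB x a b) x y
      rw [hf1, hf1, mB.self, zero_sub, abs_neg, abs_of_nonneg (isMet_nonneg mB x y)] at h5
      exact h5
  refine ⟨D, hD, ?_, h1, h2, hDA, hDB⟩
  intro f hf
  refine key f ?_ ?_
  · exact gA (fun x => f x) fun u v huv => by
      have := hf u v huv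
      rwa [hDA] at this
  · exact gB (fun x => f x) fun u v huv => by
      have := hf u v huv
      rwa [hDB] at this

theorem amalg : AmalgStmt := amalg_of sup

end Vale.Agent.P235.Hub.H465
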